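import Vale.Agent.P235.K5.SX.Defs
import Vale.Agent.P235.K5.H500.Presc
import Vale.Agent.P235.K5.H913.Collar
import Vale.Agent.P235.K5.H558.Pseudo

/-!
P235, line SX, row [S1] (helper500, second hand): prescribed distances `ρ ≤ d` on a root triple, no
lower bound on `ρ`, which may vanish.
-/

set_option autoImplicit false

namespace Vale.Agent.P235.K5.SX.H500

open SimpleGraph Vale.Agent.P235 Vale.Agent.P235.H134 Vale.Agent.P235.H56 Vale.Agent.P235.K5
open Vale.Agent.P235.K5.H500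
open Vale.Agent.P235.H341W (capG)

variable {V : Type}

/-- **metric core, `ρ` positive** -/
theorem core {d : V → V → ℝ} (hd : IsMet d) {R : Fin 3 → V}
    {ρ : Fin 3 → Fin 3 → ℝ} {k c0 κ c' : ℝ} (hκ1 : κ ≤ 1) (hc0 : 0 < c0)
    (hk1 : k ≤ 3 / 4) (hk2 : k ≤ c0 * κ / 8) (h : Root d R c' ρ)
    {F1 F2 : V → V → ℝ} (h1 : IsL1 F1) (h1u : ∀ x y, F1 x y ≤ sh d R ρ x y)
    (h1R : ∀ i j, F1 (R i) (R j) = sh d R ρ (R i) (R j))
    (h1l : ∀ x y, c0 * sh d R ρ x y ≤ F1 x y)
    (h2 : IsL1 F2) (h2u : ∀ x y, F2 x y ≤ d x y) (h2R : ∀ i j, F2 (R i) (R j) = ρ i j)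
    (h2l : ∀ x y, (∃ i j, d x (R i) + ρ i j + d (R j) y < κ * d x y) →
      ∃ i j, ρ i j + d x (R i) + d y (R j) ≤ F2 x y) :
    ∃ F : V → V → ℝ, IsL1 F ∧ (∀ x y, F x y ≤ d x y) ∧ (∀ i j, F (R i) (R j) = ρ i j) ∧
      ∀ x y, k * d x y ≤ F x y ∨ ∃ i j, ρ i j + k * (d x (R i) + d y (R j)) ≤ F x y := by
  refine ⟨fun x y => 1 / 8 * F1 x y + 7 / 8 * F2 x y,
    IsL1.add' (IsL1.smul' (by norm_num) h1) (IsL1.smul' (by norm_num) h2), ?_, ?_, ?_⟩
  · intro x y
    have a1 := h1u x y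
    have a2 := sh_le (d := d) (R := R) (ρ := ρ) x y
    have a3 := h2u x y
    show 1 / 8 * F1 x y + 7 / 8 * F2 x y ≤ d x y
    linarith
  · intro i j
    show 1 / 8 * F1 (R i) (R j) + 7 / 8 * F2 (R i) (R j) = ρ i j
    rw [h1R, sh_root hd h, h2R]; ring
  · intro x y
    show k * d x y ≤ 1 / 8 * F1 x y + 7 / 8 * F2 x y ∨
      ∃ i j, ρ i j + k * (d x (R i) + d y (R j)) ≤ 1 / 8 * F1 x y + 7 / 8 * F2 x y
    have n := hd.nonneg
    by_cases hx : ∃ i j, d x (R i) + ρ i j + d (R j) y < κ * d x y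
    · right
      obtain ⟨i, j, hij⟩ := h2l x y hx
      refine ⟨i, j, ?_⟩
      have b1 : ρ i j ≤ F1 x y + d x (R i) + d y (R j) := by
        have e1 := h1R i j
        rw [sh_root hd h] at e1
        have e2 := h1.tri (R i) x (R j)
        have e3 := h1.tri x y (R j)
        have e4 := h1u (R i) x
        have e5 := sh_le (d := d) (R := R) (ρ := ρ) (R i) x
        have e6 := h1u y (R j)
        have e7 := sh_le (d := d) (R := R) (ρ := ρ) y (R j)
        rw [hd.symm (R i) x] at e5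
        linarith
      have b4 : k * (d x (R i) + d y (R j)) ≤ 3 / 4 * (d x (R i) + d y (R j)) :=
        mul_le_mul_of_nonneg_right hk1 (by linarith [n x (R i), n y (R j)])
      linarith
    · left
      push Not at hx
      have b1 : κ * d x y ≤ sh d R ρ x y ∨ d x y ≤ sh d R ρ x y := by
        rcases sh_cases (d := d) (R := R) (ρ := ρ) x y with e | ⟨i, j, e⟩
        · exact Or.inr e.ge
        · exact Or.inl (by rw [e]; exact hx i j)
      have b2 : 0 ≤ F2 x y := h2.nonneg x y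
      have b3 := h1l x y
      rcases b1 with b1 | b1
      · have b4 := mul_le_mul_of_nonneg_left b1 hc0.le
        have b5 := mul_le_mul_of_nonneg_right hk2 (n x y)
        have b6 : c0 * κ / 8 * d x y = 1 / 8 * (c0 * (κ * d x y)) := by ring
        linarith
      · have b4 := mul_le_mul_of_nonneg_left b1 hc0.le
        have b5 := mul_le_mul_of_nonneg_right hk2 (n x y)
        have b6 : c0 * κ / 8 * d x y ≤ 1 / 8 * (c0 * d x y) := by
          have b7 : κ * (c0 * d x y) ≤ 1 * (c0 * d x y) :=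
            mul_le_mul_of_nonneg_right hκ1 (mul_nonneg hc0.le (n x y))
          have b8 : c0 * κ / 8 * d x y = 1 / 8 * (κ * (c0 * d x y)) := by ring
          linarith
        linarith

/-- the metrics generated by `G` have `L₁` maps which are exact on `R` -/
def Ex3 (G : SimpleGraph V) (c : ℝ) (R : Fin 3 → V) : Prop :=
  ∀ d : V → V → ℝ, IsMet d → Gen G d → ∃ F : V → V → ℝ, IsL1 F ∧
    (∀ i j, F (R i) (R j) = d (R i) (R j)) ∧ (∀ x y, c * d x y ≤ F x y) ∧ ∀ x y, F x y ≤ d x y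

/-- `ρ` positive -/
theorem pos [Finite V] {G : SimpleGraph V} {c k : ℝ} (hc : 0 < c) (hk : k ≤ c / 2048)
    (hk1 : k ≤ 3 / 4) {R : Fin 3 → V} (hR : ∀ i j, R i ≠ R j → G.Adj (R i) (R j))
    (hE : Ex3 G c R) {d : V → V → ℝ} (hd : IsMet d) (hG : Gen G d) {c' : ℝ} (hc' : 0 < c')
    {ρ : Fin 3 → Fin 3 → ℝ} (h : Root d R c' ρ) :
    ∃ F : V → V → ℝ, IsL1 F ∧ (∀ x y, F x y ≤ d x y) ∧ (∀ i j, F (R i) (R j) = ρ i j) ∧
      ∀ x y, k * d x y ≤ F x y ∨ ∃ i j, ρ i j + k * (d x (R i) + d y (R j)) ≤ F x y := by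
  obtain ⟨F1, l1, e1, low1, up1⟩ := hE (sh d R ρ) (sh_isMet hd h hc') (sh_gen hd hG h hc' hR)
  obtain ⟨F2, l2, up2, e2, near2⟩ := H913.collar hd R ρ h.self h.symm h.tri h.up
  have n := hd.nonneg
  refine core (κ := 1 / 128) hd (by norm_num) hc hk1 (by linarith) h l1 up1 e1 low1 l2 up2 e2 ?_
  rintro x y ⟨i, j, hij⟩
  refine near2 x y i j ?_
  have s := hd.symm (R j) y
  have n1 := n x (R i)
  have n2 := n y (R j)
  linarith

/-- **`ρ ≤ d` arbitrary, indexed triple** -/
theorem idx [Finite V] {G : SimpleGraph V} {c k : ℝ} (hc : 0 < c) (hk0 : 0 ≤ k)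
    (hk : k ≤ c / 2048) (hk1 : k ≤ 3 / 4) {R : Fin 3 → V}
    (hR : ∀ i j, R i ≠ R j → G.Adj (R i) (R j)) (hE : Ex3 G c R) {d : V → V → ℝ} (hd : IsMet d)
    (hG : Gen G d) {ρ : V → V → ℝ} (hρ : IsL1 ρ) (hle : ∀ i j, ρ (R i) (R j) ≤ d (R i) (R j)) :
    ∃ F : V → V → ℝ, IsL1 F ∧ (∀ x ∈ Set.range R, ∀ y ∈ Set.range R, F x y = ρ x y) ∧
      (∀ x y, F x y ≤ d x y) ∧ ∀ x y, Tri3 k False d F (Set.range R) x y := by
  classical
  have nd := hd.nonneg
  let η : ℕ → ℝ := fun n => 1 / ((n : ℝ) + 1)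
  have η0 : ∀ n, 0 < η n := fun n => by positivity
  have η1 : ∀ n, η n ≤ 1 := fun n => by
    have : (0 : ℝ) ≤ n := Nat.cast_nonneg n
    exact (div_le_one (by linarith)).2 (by linarith)
  let q : ℕ → V → V → ℝ := fun n x y => (1 - η n) * ρ x y + η n * d x y
  have hroot : ∀ n, Root d R (η n) fun i j => q n (R i) (R j) := by
    intro n
    have e0 := (η0 n).le
    have e1 : 0 ≤ 1 - η n := by linarith [η1 n]
    refine ⟨fun i => ?_, fun i j => ?_, fun i j l => ?_, fun i j => ?_, fun i j => ?_⟩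
    · show (1 - η n) * ρ (R i) (R i) + η n * d (R i) (R i) = 0
      rw [hρ.self, hd.self]; ring
    · show (1 - η n) * ρ (R i) (R j) + η n * d (R i) (R j) =
        (1 - η n) * ρ (R j) (R i) + η n * d (R j) (R i)
      rw [hρ.symm, hd.symm]
    · show (1 - η n) * ρ (R i) (R l) + η n * d (R i) (R l) ≤
        (1 - η n) * ρ (R i) (R j) + η n * d (R i) (R j) +
          ((1 - η n) * ρ (R j) (R l) + η n * d (R j) (R l))
      have a1 := mul_le_mul_of_nonneg_left (hρ.tri (R i) (R j) (R l)) e1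
      have a2 := mul_le_mul_of_nonneg_left (hd.tri (R i) (R j) (R l)) e0
      linarith
    · show η n * d (R i) (R j) ≤ (1 - η n) * ρ (R i) (R j) + η n * d (R i) (R j)
      have a1 := mul_nonneg e1 (hρ.nonneg (R i) (R j))
      linarith
    · show (1 - η n) * ρ (R i) (R j) + η n * d (R i) (R j) ≤ d (R i) (R j)
      have a1 := mul_le_mul_of_nonneg_left (hle i j) e1
      linarith
  have hq : ∀ n i j, ρ (R i) (R j) ≤ q n (R i) (R j) := by
    intro n i j
    show ρ (R i) (R j) ≤ (1 - η n) * ρ (R i) (R j) + η n * d (R i) (R j)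
    have a1 := mul_le_mul_of_nonneg_left (hle i j) (η0 n).le
    linarith
  have H := fun n => pos hc hk hk1 hR hE hd hG (η0 n) (hroot n)
  -- the lower bound off the roots, which does not depend on `n`
  let L : V → V → ℝ := fun x y => min (k * d x y) (Finset.univ.inf' ⟨(0, 0), Finset.mem_univ _⟩
    fun p : Fin 3 × Fin 3 => ρ (R p.1) (R p.2) + k * (d x (R p.1) + d y (R p.2)))
  have hL : ∀ x y a, (k * d x y ≤ a ∨
      ∃ i j, ρ (R i) (R j) + k * (d x (R i) + d y (R j)) ≤ a) ↔ L x y ≤ a := by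
    intro x y a
    constructor
    · rintro (h | ⟨i, j, h⟩)
      · exact (min_le_left _ _).trans h
      · exact ((min_le_right _ _).trans (Finset.inf'_le (s := Finset.univ)
          (fun p : Fin 3 × Fin 3 => ρ (R p.1) (R p.2) + k * (d x (R p.1) + d y (R p.2)))
          (Finset.mem_univ (i, j)))).trans h
    · intro h
      rcases min_le_iff.1 h with h | h
      · exact Or.inl h
      · right
        obtain ⟨p, -, hp⟩ := Finset.exists_mem_eq_inf'
          (s := (Finset.univ : Finset (Fin 3 × Fin 3))) ⟨(0, 0), Finset.mem_univ _⟩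
          fun p : Fin 3 × Fin 3 => ρ (R p.1) (R p.2) + k * (d x (R p.1) + d y (R p.2))
        exact ⟨p.1, p.2, hp ▸ h⟩
  let S : Set V := Set.range R
  obtain ⟨F, hF, hFb⟩ := H558.isL1_lim
    (U := fun n x y => if x ∈ S ∧ y ∈ S then q n x y else d x y)
    (L := fun n x y => if x ∈ S ∧ y ∈ S then q n x y else L x y)
    (U' := fun x y => if x ∈ S ∧ y ∈ S then ρ x y else d x y)
    (L' := fun x y => if x ∈ S ∧ y ∈ S then ρ x y else L x y)
    (by
      intro x y
      have ht : Filter.Tendsto η Filter.atTop (nhds 0) := tendsto_one_div_add_atTop_nhds_zero_nat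
      by_cases hxy : x ∈ S ∧ y ∈ S
      · simp only [if_pos hxy]
        have h1 : Filter.Tendsto (fun n => (1 - η n) * ρ x y + η n * d x y) Filter.atTop
            (nhds ((1 - 0) * ρ x y + 0 * d x y)) :=
          ((ht.const_sub 1).mul_const _).add (ht.mul_const _)
        have h2 : (1 - 0) * ρ x y + 0 * d x y = ρ x y := by ring
        rw [h2] at h1
        exact h1
      · simp only [if_neg hxy]
        exact tendsto_const_nhds)
    (by
      intro x y
      have ht : Filter.Tendsto η Filter.atTop (nhds 0) := tendsto_one_div_add_atTop_nhds_zero_nat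
      by_cases hxy : x ∈ S ∧ y ∈ S
      · simp only [if_pos hxy]
        have h1 : Filter.Tendsto (fun n => (1 - η n) * ρ x y + η n * d x y) Filter.atTop
            (nhds ((1 - 0) * ρ x y + 0 * d x y)) :=
          ((ht.const_sub 1).mul_const _).add (ht.mul_const _)
        have h2 : (1 - 0) * ρ x y + 0 * d x y = ρ x y := by ring
        rw [h2] at h1
        exact h1
      · simp only [if_neg hxy]
        exact tendsto_const_nhds)
    (by
      intro n
      obtain ⟨F, f1, f2, f3, f4⟩ := H n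
      refine ⟨F, f1, fun x y => ?_⟩
      by_cases hxy : x ∈ S ∧ y ∈ S
      · simp only [if_pos hxy]
        obtain ⟨⟨i, rfl⟩, ⟨j, rfl⟩⟩ := hxy
        exact ⟨(f3 i j).ge, (f3 i j).le⟩
      · simp only [if_neg hxy]
        refine ⟨(hL x y _).1 ?_, f2 x y⟩
        rcases f4 x y with h | ⟨i, j, h⟩
        · exact Or.inl h
        · exact Or.inr ⟨i, j, by linarith [hq n i j]⟩)
  have hS : ∀ x ∈ S, ∀ y ∈ S, F x y = ρ x y := by
    intro x hx y hy
    have h := hFb x y
    simp only [if_pos (And.intro hx hy)] at h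
    exact le_antisymm h.2 h.1
  refine ⟨F, hF, hS, fun x y => ?_, fun x y => ?_⟩
  · by_cases hxy : x ∈ S ∧ y ∈ S
    · rw [hS x hxy.1 y hxy.2]
      obtain ⟨⟨i, rfl⟩, ⟨j, rfl⟩⟩ := hxy
      exact hle i j
    · have h := (hFb x y).2
      simp only [if_neg hxy] at h
      exact h
  · by_cases hxy : x ∈ S ∧ y ∈ S
    · refine Or.inr (Or.inl ⟨x, hxy.1, y, hxy.2, ?_⟩)
      rw [hd.self, hd.self]; linarith
    · have h := (hFb x y).1
      simp only [if_neg hxy] at h
      rcases (hL x y _).2 h with h | ⟨i, j, h⟩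
      · exact Or.inl h
      · refine Or.inr (Or.inl ⟨R i, ⟨i, rfl⟩, R j, ⟨j, rfl⟩, ?_⟩)
        rw [hS _ ⟨i, rfl⟩ _ ⟨j, rfl⟩]
        exact h

end Vale.Agent.P235.K5.SX.H500
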