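import Vale.Agent.P235.K5.SX.H500.Core
import Vale.Agent.P235.K5.H500.Piece
import Vale.Agent.P235.K5.H750.Presc2

/-!
P235, line SX, row [S1] (helper500): pieces of type P, arbitrary `ρ ≤ d` on the root clique.
-/

set_option autoImplicit false

namespace Vale.Agent.P235.K5.SX.H500

open SimpleGraph Vale.Agent.P235 Vale.Agent.P235.H134 Vale.Agent.P235.H56 Vale.Agent.P235.K5
open Vale.Agent.P235.K5.H500
open Vale.Agent.P235.H341W (capG)

variable {V : Type}

/-- the conclusion of [S1] -/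
def Out (k : ℝ) (d : V → V → ℝ) (S : Set V) (ρ : V → V → ℝ) : Prop :=
  ∃ F : V → V → ℝ, IsL1 F ∧ (∀ x ∈ S, ∀ y ∈ S, F x y = ρ x y) ∧ (∀ x y, F x y ≤ d x y) ∧
    ∀ x y, Tri3 k False d F S x y

theorem out_one {c k : ℝ} (hk : k ≤ c) {d : V → V → ℝ} (hd : IsMet d)
    (hE : ∃ F : V → V → ℝ, IsL1 F ∧ (∀ x y, c * d x y ≤ F x y) ∧ ∀ x y, F x y ≤ d x y)
    {S : Set V} (hS : S.Subsingleton) {ρ : V → V → ℝ} (hρ : IsL1 ρ) : Out k d S ρ := by
  obtain ⟨F, h1, h2, h3⟩ := hE
  refine ⟨F, h1, ?_, h3, fun x y => Or.inl ?_⟩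
  · intro u hu v hv
    rw [hS hu hv, h1.self, hρ.self]
  · exact (mul_le_mul_of_nonneg_right hk (hd.nonneg x y)).trans (h2 x y)

theorem out_two [Finite V] {G : SimpleGraph V} {c k : ℝ} (hc : 0 < c) (hc1 : c ≤ 1)
    (hk0 : 0 ≤ k) (hk : k ≤ c / 2048) (hE : EdgeExact G c) {d : V → V → ℝ}
    (hd : IsMet d) (hG : Gen G d) {s t : V} (hst : G.Adj s t) {ρ : V → V → ℝ}
    (hρ : IsL1 ρ) (hle : ∀ x ∈ ({s, t} : Set V), ∀ y ∈ ({s, t} : Set V), ρ x y ≤ d x y) :
    Out k d {s, t} ρ := by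
  let R : Fin 3 → V := ![s, t, t]
  have hRS : Set.range R = {s, t} := by
    ext v
    constructor
    · rintro ⟨i, rfl⟩
      fin_cases i
      · exact Or.inl rfl
      · exact Or.inr rfl
      · exact Or.inr rfl
    · rintro (rfl | rfl)
      · exact ⟨0, rfl⟩
      · exact ⟨1, rfl⟩
  have hmem : ∀ i, R i ∈ ({s, t} : Set V) := fun i => hRS ▸ Set.mem_range_self i
  have hR : ∀ i j, R i ≠ R j → G.Adj (R i) (R j) := by
    intro i j hij
    rcases hmem i with h1 | h1 <;> rcases hmem j with h2 | h2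
    · exact (hij (h1.trans h2.symm)).elim
    · rw [h1, h2]; exact hst
    · rw [h1, h2]; exact hst.symm
    · exact (hij (h1.trans h2.symm)).elim
  have hE3 : Ex3 G c R := by
    intro d' hd' hG'
    obtain ⟨F, h1, h2, h3, h4⟩ := hE d' hd' hG' s t hst
    refine ⟨F, h1, ?_, h3, h4⟩
    intro i j
    rcases hmem i with e1 | e1 <;> rcases hmem j with e2 | e2
    · rw [e1, e2, h1.self, hd'.self]
    · rw [e1, e2]; exact h2
    · rw [e1, e2, h1.symm, hd'.symm]; exact h2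
    · rw [e1, e2, h1.self, hd'.self]
  have key := idx hc hk0 hk (by linarith) hR hE3 hd hG hρ
    (fun i j => hle _ (hmem i) _ (hmem j))
  rw [hRS] at key
  exact key

theorem out_three [Finite V] {G : SimpleGraph V} {c k : ℝ} (hc : 0 < c) (hc1 : c ≤ 1)
    (hk0 : 0 ≤ k) (hk : k ≤ c / 12288) (hE : EdgeExact G c) {d : V → V → ℝ}
    (hd : IsMet d) (hG : Gen G d) {S : Set V} (hS : S.ncard = 3)
    (hcl : ∀ u ∈ S, ∀ v ∈ S, u ≠ v → G.Adj u v) (hno : ¬ IsMinor K33 (capG G S))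
    {ρ : V → V → ℝ} (hρ : IsL1 ρ) (hle : ∀ x ∈ S, ∀ y ∈ S, ρ x y ≤ d x y) : Out k d S ρ := by
  obtain ⟨x, y, z, hxy, hxz, hyz, rfl⟩ := Set.ncard_eq_three.1 hS
  let R : Fin 3 → V := ![x, y, z]
  have hRS : Set.range R = {x, y, z} := by
    ext v
    constructor
    · rintro ⟨i, rfl⟩
      fin_cases i
      · exact Or.inl rfl
      · exact Or.inr (Or.inl rfl)
      · exact Or.inr (Or.inr rfl)
    · rintro (rfl | rfl | rfl)
      · exact ⟨0, rfl⟩
      · exact ⟨1, rfl⟩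
      · exact ⟨2, rfl⟩
  have hmem : ∀ i, R i ∈ ({x, y, z} : Set V) := fun i => hRS ▸ Set.mem_range_self i
  have hinj : ∀ i j, i ≠ j → R i ≠ R j := by
    intro i j hij
    fin_cases i <;> fin_cases j
    · exact (hij rfl).elim
    · exact hxy
    · exact hxz
    · exact hxy.symm
    · exact (hij rfl).elim
    · exact hyz
    · exact hxz.symm
    · exact hyz.symm
    · exact (hij rfl).elim
  have hadj : TriAdj G R := fun i j hij => hcl _ (hmem i) _ (hmem j) (hinj i j hij)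
  have hno' : ¬ IsMinor K33 (capG G (Set.range R)) := by rw [hRS]; exact hno
  have hE3 : Ex3 G (c / 6) R := fun d' hd' hG' =>
    H750.triIso' G c hc hE d' hd' hG' R hadj hno'
  have key := idx (c := c / 6) (k := k) (by positivity) hk0 (by linarith) (by linarith)
    (fun i j hij => hcl _ (hmem i) _ (hmem j) hij) hE3 hd hG hρ
    (fun i j => hle _ (hmem i) _ (hmem j))
  rw [hRS] at key
  exact key

/-- **[S1]** -/
theorem s1 : S1Stmt := by
  intro V _ G c hc hc1 hconn hE d hd hG S hS hcl hno ρ hρ hle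
  have hcases : S.ncard ≤ 1 ∨ S.ncard = 2 ∨ S.ncard = 3 := by omega
  rcases hcases with h | h | h
  · obtain ⟨F, h1, -, h3, h4⟩ := presc_one hE hconn hd hG (S := ∅) Set.subsingleton_empty
      (fun x y => 0 * |d x x - d y y|) ((isL1_line fun x => d x x).smul le_rfl)
      (fun u hu => absurd hu (Set.notMem_empty u)) (fun u hu => absurd hu (Set.notMem_empty u))
    exact out_one (c := c) (by linarith) hd ⟨F, h1, h3, h4⟩
      (fun a ha b hb => (Set.ncard_le_one (Set.toFinite S)).1 h a ha b hb) hρ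
  · obtain ⟨s, t, hne, rfl⟩ := Set.ncard_eq_two.1 h
    exact out_two hc hc1 (by positivity) (by linarith) hE hd hG
      (hcl s (Or.inl rfl) t (Or.inr rfl) hne) hρ hle
  · exact out_three hc hc1 (by positivity) le_rfl hE hd hG h hcl (hno h) hρ hle

end Vale.Agent.P235.K5.SX.H500
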